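import Vale.Agent.P345.Bdl.B3

namespace Vale.Agent.Results.P345.SingleFold

/-- `w` solves `P(a, w) = 0`: here `P` is a polynomial with integer coefficients in the `n`
parameter variables (indexed by `Fin n`) and the `m` auxiliary variables (indexed by `Fin m`). -/
def IsWitness {n m : ℕ} (P : MvPolynomial (Fin n ⊕ Fin m) ℤ) (a : Fin n → ℕ) (w : Fin m → ℕ) :
    Prop :=
  MvPolynomial.eval (Sum.elim (fun i => (a i : ℤ)) (fun j => (w j : ℤ))) P = 0

/-- `P` is a Diophantine representation of the set `S`. -/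
def IsDiophantineRep {n m : ℕ} (P : MvPolynomial (Fin n ⊕ Fin m) ℤ) (S : Set (Fin n → ℕ)) :
    Prop :=
  ∀ a : Fin n → ℕ, a ∈ S ↔ ∃ w : Fin m → ℕ, IsWitness P a w

/-- For every value of the parameters there is at most one solution in the auxiliary variables. -/
def IsSingleFold {n m : ℕ} (P : MvPolynomial (Fin n ⊕ Fin m) ℤ) : Prop :=
  ∀ a : Fin n → ℕ, {w : Fin m → ℕ | IsWitness P a w}.Subsingleton

/-- Matiyasevich's single-fold conjecture: every recursively enumerable set of `n`-tuples of
natural numbers has a single-fold Diophantine representation. -/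
theorem result (n : ℕ) (S : Set (Fin n → ℕ)) (hS : REPred (fun a => a ∈ S)) :
    ∃ (m : ℕ) (P : MvPolynomial (Fin n ⊕ Fin m) ℤ), IsDiophantineRep P S ∧ IsSingleFold P := by
  obtain ⟨m, P, h1, h2⟩ := (Vale.Agent.P345.sf_of_rePred n S hS).exists_mvPolynomial
  exact ⟨m, P, h1, h2⟩

end Vale.Agent.Results.P345.SingleFold
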